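import Crest.Agent.N250.K.Int

/-!
# Row 250, block A (helper25): alternative I of the kernel analysis (`KIS`)
-/

set_option autoImplicit false
open MeasureTheory Set Filter Topology
open scoped ContDiff InnerProductSpace
open Crest.GeometryTopology.MCF

noncomputable section

namespace Crest.Agent.N250.K

open Crest.Agent.N250.A

/-- geometric growth stops or lasts -/
lemma seq {T : ℕ → ℝ} (hT : Monotone T) {κ Λ : ℝ} (hκ : 1 ≤ κ) (hΛ : 0 ≤ Λ) {J : ℕ}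
    (hJ : Λ * (J + 1) ≤ T J) (n : ℕ) :
    (∃ k, J ≤ k ∧ k < J + n ∧ T (k + 1) - T k ≤ T (k + 1) / κ ∧ Λ / κ * (k + 1) ≤ T (k + 1)) ∨
      Λ * (J + 1) * (1 + 1 / κ) ^ n ≤ T (J + n) := by
  have hκ0 : 0 < κ := by linarith
  induction n with
  | zero => right; simpa using hJ
  | succ n ih =>
    rcases ih with ⟨k, h1, h2, h3⟩ | ih
    · exact Or.inl ⟨k, h1, by omega, h3⟩
    have hm : T (J + n) ≤ T (J + n + 1) := hT (Nat.le_succ _)
    by_cases h : T (J + n + 1) - T (J + n) ≤ T (J + n + 1) / κ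
    · refine Or.inl ⟨J + n, by omega, by omega, h, le_trans ?_ (ih.trans hm)⟩
      have b : 1 + (n : ℝ) * (1 / κ) ≤ (1 + 1 / κ) ^ n :=
        one_add_mul_le_pow (by have : 0 < 1 / κ := by positivity
                               linarith) n
      have b2 : 1 / κ * (((J + n : ℕ) : ℝ) + 1) ≤ (J + 1) * (1 + (n : ℝ) * (1 / κ)) := by
        have f1 : 1 / κ ≤ 1 := by rw [div_le_one hκ0]; exact hκ
        have f2 : (0 : ℝ) ≤ J := Nat.cast_nonneg _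
        have f3 : (0 : ℝ) ≤ n := Nat.cast_nonneg _
        have f4 : 0 < 1 / κ := by positivity
        push_cast
        nlinarith [mul_nonneg f2 (mul_nonneg f3 f4.le), mul_le_mul_of_nonneg_left f1 f2]
      calc Λ / κ * (((J + n : ℕ) : ℝ) + 1) = Λ * (1 / κ * (((J + n : ℕ) : ℝ) + 1)) := by ring
        _ ≤ Λ * ((J + 1) * (1 + 1 / κ) ^ n) := by
            refine mul_le_mul_of_nonneg_left (b2.trans ?_) hΛ
            exact mul_le_mul_of_nonneg_left b (by positivity)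
        _ = _ := by ring
    · right
      have h1 : T (J + n) / κ ≤ T (J + n + 1) / κ := by gcongr
      have h2 : T (J + n) * (1 + 1 / κ) ≤ T (J + n + 1) := by
        have : T (J + n) * (1 + 1 / κ) = T (J + n) + T (J + n) / κ := by ring
        linarith [not_le.1 h]
      calc _ = Λ * (J + 1) * (1 + 1 / κ) ^ n * (1 + 1 / κ) := by ring
        _ ≤ T (J + n) * (1 + 1 / κ) := by gcongr
        _ ≤ _ := h2

/-- the choice of the scale -/
lemma pick {T : ℕ → ℝ} (hT : Monotone T) {κ D : ℝ} (hκ : 1 ≤ κ) (hD : 4 ≤ D) {J k₁ c₀ N : ℕ}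
    (hJ : 4 * D * κ * (k₁ + 1) * (J + 1) ≤ T J) (hN0 : 1 + c₀ + 2 * k₁ < N + 1)
    (hJN : 3 * J < c₀ + (N + 1)) (hTN : T N ≤ 2 * (c₀ + (N + 1)) + 1) :
    ∃ k, k₁ ≤ k ∧ k < N ∧ T (k + 1) - T k ≤ T (k + 1) / κ ∧ 4 * D * (k + 1) ≤ T (k + 1) := by
  have hκ0 : 0 < κ := by linarith
  obtain ⟨Λ₁, hΛ₁⟩ : ∃ Λ₁, Λ₁ = 4 * D * κ := ⟨_, rfl⟩
  have hΛ₁0 : 0 < Λ₁ := by rw [hΛ₁]; positivity
  rw [← hΛ₁] at hJ
  have hJ' : Λ₁ * (((J + k₁ : ℕ) : ℝ) + 1) ≤ T (J + k₁) := by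
    refine le_trans ?_ (hJ.trans (hT (Nat.le_add_right J k₁)))
    rw [mul_assoc]
    refine mul_le_mul_of_nonneg_left ?_ hΛ₁0.le
    have f2 : (0 : ℝ) ≤ J := Nat.cast_nonneg _
    have f3 : (0 : ℝ) ≤ k₁ := Nat.cast_nonneg _
    push_cast; nlinarith
  obtain ⟨n, hn⟩ : ∃ n, N = J + k₁ + n := ⟨N - (J + k₁), by omega⟩
  rcases seq hT hκ hΛ₁0.le hJ' n with ⟨k, hk1, hk2, hk3, hk4⟩ | h
  · refine ⟨k, by omega, by omega, hk3, ?_⟩
    rwa [show Λ₁ / κ = 4 * D by rw [hΛ₁]; field_simp] at hk4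
  exfalso
  have b : 1 + (n : ℝ) * (1 / κ) ≤ (1 + 1 / κ) ^ n :=
    one_add_mul_le_pow (by have : 0 < 1 / κ := by positivity
                           linarith) n
  have h2 : 16 * (n : ℝ) ≤ Λ₁ * (((J + k₁ : ℕ) : ℝ) + 1) * (1 + 1 / κ) ^ n := by
    have f1 : Λ₁ * ((n : ℝ) * (1 / κ)) = 4 * D * n := by rw [hΛ₁]; field_simp
    have f3 : (0 : ℝ) ≤ n := Nat.cast_nonneg _
    have f4 : (1 : ℝ) ≤ ((J + k₁ : ℕ) : ℝ) + 1 := by
      have : (0 : ℝ) ≤ ((J + k₁ : ℕ) : ℝ) := Nat.cast_nonneg _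
      linarith
    calc 16 * (n : ℝ) ≤ Λ₁ * ((n : ℝ) * (1 / κ)) := by rw [f1]; nlinarith
      _ ≤ Λ₁ * (1 * (1 + 1 / κ) ^ n) := by
          refine mul_le_mul_of_nonneg_left ?_ hΛ₁0.le; linarith
      _ ≤ Λ₁ * ((((J + k₁ : ℕ) : ℝ) + 1) * (1 + 1 / κ) ^ n) := by gcongr
      _ = _ := by ring
  have h3 : 2 * (c₀ + (N + 1)) + 1 < 16 * n := by omega
  have h4 : (2 * (c₀ + (N + 1)) + 1 : ℝ) < 16 * n := by exact_mod_cast h3
  rw [← hn] at h
  linarith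

/-- the arithmetic of the range of scales -/
lemma range {x R : ℝ} (hx : 1 ≤ x) {c₀ k₁ J : ℕ} (hc₀ : x < 2 ^ c₀)
    (hR : x * 2 ^ (1 + c₀ + 2 * k₁) ≤ R) (hJ1 : (8 : ℝ) ^ J ≤ R) :
    ∃ N : ℕ, 2 ^ N * x ≤ R ∧ 1 + c₀ + 2 * k₁ < N + 1 ∧ 3 * J < c₀ + (N + 1) ∧
      Real.log R ≤ c₀ + (N + 1) := by
  have hx' : (2 : ℝ) ^ (1 + c₀ + 2 * k₁) ≤ R / x := by
    rw [le_div_iff₀ (by positivity)]; linarith
  obtain ⟨N, hN1, hN2⟩ := exists_nat_pow_near ((one_le_pow₀ one_le_two).trans hx')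
    (one_lt_two (α := ℝ))
  have hRlt : R < 2 ^ (c₀ + (N + 1)) := by
    rw [div_lt_iff₀ (by positivity)] at hN2
    rw [pow_add]
    have : (0 : ℝ) < 2 ^ (N + 1) := by positivity
    nlinarith
  have hR0 : 0 < R := lt_of_lt_of_le (by positivity) hR
  refine ⟨N, (le_div_iff₀ (by positivity)).1 hN1,
    (pow_lt_pow_iff_right₀ (one_lt_two (α := ℝ))).1 (hx'.trans_lt hN2), ?_, ?_⟩
  · apply (pow_lt_pow_iff_right₀ (one_lt_two (α := ℝ))).1
    rw [pow_mul]; norm_num; exact hJ1.trans_lt hRlt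
  · have h1 := Real.log_le_log hR0 hRlt.le
    rw [Real.log_pow] at h1
    have h2 : Real.log 2 ≤ 1 := by have := Real.log_two_lt_d9; linarith
    have h3 : (0 : ℝ) ≤ ((c₀ + (N + 1) : ℕ) : ℝ) := Nat.cast_nonneg _
    have := mul_le_mul_of_nonneg_left h2 h3
    push_cast at h1 this; linarith

lemma log_le {Λ' L' X : ℝ} (h1 : 0 < Λ') (h2 : 0 < L') {k : ℕ}
    (h : (4 + |Real.log (Λ' * L')|) * (k + 1) - 3 ≤ X) : Λ' * (L' * 2 ^ (k + 1)) ≤ Real.exp X := by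
  rw [← Real.exp_log (show 0 < Λ' * (L' * 2 ^ (k + 1)) by positivity)]
  apply Real.exp_le_exp.2
  have e1 : Real.log (Λ' * (L' * 2 ^ (k + 1))) = Real.log (Λ' * L') + (k + 1) * Real.log 2 := by
    rw [← mul_assoc, Real.log_mul (by positivity) (by positivity), Real.log_pow]
    push_cast; ring
  have h2 : Real.log 2 ≤ 1 := by have := Real.log_two_lt_d9; linarith
  have f0 : (0 : ℝ) ≤ k := Nat.cast_nonneg _
  have f1 : ((k : ℝ) + 1) * Real.log 2 ≤ k + 1 := mul_le_of_le_one_right (by positivity) h2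
  have f2 := le_abs_self (Real.log (Λ' * L'))
  have f3 := mul_nonneg (abs_nonneg (Real.log (Λ' * L'))) f0
  rw [e1]; nlinarith

theorem kIS_holds : KIS := by
  intro Λ L e Λ' r₁ hΛ hL he hΛ'
  have hL0 : 0 ≤ L := by linarith
  have hL' := LL_ge hL0
  have hC2 := C2_pos hL0
  have hC3 := C3_pos hL0
  obtain ⟨Cc, hCc, hch⟩ := cheb
  obtain ⟨k₁, hk₁⟩ := pow_unbounded_of_one_lt r₁ (one_lt_two (α := ℝ))
  obtain ⟨c₀, hc₀⟩ := pow_unbounded_of_one_lt (L * LL L) (one_lt_two (α := ℝ))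
  obtain ⟨A, hA⟩ : ∃ A, A = Cc * Λ * C3 L / e := ⟨_, rfl⟩
  have hA0 : 0 ≤ A := by rw [hA]; positivity
  obtain ⟨K', hK'⟩ : ∃ K', K' = C2 L * LL L + 1 + A := ⟨_, rfl⟩
  have hK1 : 1 ≤ K' := by
    have : 0 ≤ C2 L * LL L := by positivity
    linarith
  obtain ⟨D, hD⟩ : ∃ D, D = 4 + |Real.log (Λ' * LL L)| := ⟨_, rfl⟩
  have hD4 : 4 ≤ D := by have := abs_nonneg (Real.log (Λ' * LL L)); linarith
  have hLL : 1 ≤ L * LL L := by nlinarith
  refine ⟨4 * D * (8 * K') * (k₁ + 1), L * LL L * 2 ^ (1 + c₀ + 2 * k₁), by positivity, ?_⟩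
  intro ν _ σ R hσ _ hR hpot ⟨J, hJ1, hJ2⟩
  obtain ⟨N, hN1, hN0, hJN, hlog⟩ := range hLL hc₀ hR hJ1
  have hTm : Monotone fun k : ℕ => TT ν σ (2 ^ k) := fun a b h =>
    TT_mono hσ (by positivity) (pow_le_pow_right₀ one_le_two h)
  obtain ⟨k, hk1, hk2, hk3, hk4⟩ := pick hTm (κ := 8 * K') (by linarith) hD4 hJ2 hN0 hJN
    ((TT_le_pot hσ (by positivity)).trans (by linarith))
  obtain ⟨r, hr⟩ : ∃ r, r = LL L * 2 ^ (k + 1) := ⟨_, rfl⟩
  have hp : (1 : ℝ) ≤ 2 ^ (k + 1) := one_le_pow₀ one_le_two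
  have hr0 : 0 < r := by rw [hr]; positivity
  have hrL : r / LL L = 2 ^ (k + 1) := by rw [hr]; field_simp
  have hr2 : 2 ^ (k + 1) ≤ r := by rw [hr]; exact le_mul_of_one_le_left (by positivity) hL'
  refine ⟨r, hp.trans hr2, ?_, ?_, fun μ hμ => ?_⟩
  · exact hk₁.le.trans ((pow_le_pow_right₀ one_le_two (by omega)).trans hr2)
  · have : (2 : ℝ) ^ (k + 1) ≤ 2 ^ N := pow_le_pow_right₀ one_le_two (by omega)
    calc L * r = 2 ^ (k + 1) * (L * LL L) := by rw [hr]; ring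
      _ ≤ 2 ^ N * (L * LL L) := by gcongr
      _ ≤ R := hN1
  have hW0 : 0 ≤ WW ν σ (2 ^ (k + 1)) := WW_nonneg hσ (by positivity)
  have hW1 := WW_le_diff (ν := ν) hσ (r := 2 ^ (k + 1)) (by positivity)
  rw [show (2 : ℝ) ^ (k + 1) / 2 = 2 ^ k by rw [pow_succ]; ring] at hW1
  have hnear := near_le (ν := ν) hσ hL0 hr0
  have hk := fun y hy => k1 (ν := ν) hσ hL0 hr0 (y := y) hy
  rw [hrL] at hnear hk
  generalize WW ν σ (2 ^ (k + 1)) = W at hW0 hW1 hnear hk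
  generalize TT ν σ (2 ^ (k + 1)) = T₁ at hW1 hk hk3 hk4
  generalize TT ν σ (2 ^ k) = T₀ at hW1 hk3
  have hW2 : K' * W ≤ T₁ / 4 := by
    calc K' * W ≤ K' * (2 * (T₁ / (8 * K'))) := by gcongr; linarith
      _ = _ := by field_simp; ring
  have hch' := hch ν σ (-r ^ 2) Λ (A * W + 1) (Near σ (LL L) r) μ hσ (meas_near _ _ _)
    (fun q hq => hq.1) hΛ hμ (by positivity)
  refine le_trans (measure_mono fun y hy => ?_) (hch'.trans (ENNReal.ofReal_le_ofReal ?_))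
  · obtain ⟨hy1, hy2⟩ := hy
    rw [mem_ball_zero_iff] at hy2
    by_contra hV
    have hV' : VV ν σ (Near σ (LL L) r) (-r ^ 2) y < A * W + 1 := not_le.1 hV
    have h1 := hk y hy2.le
    have f4 : K' * W = (C2 L * LL L + 1) * W + A * W := by rw [hK']; ring
    have h4 : Λ' * r ≤ rad ν σ (y, -r ^ 2) := by
      unfold rad
      conv_lhs => rw [hr]
      apply log_le hΛ' (by linarith)
      rw [← hD]; linarith
    exact absurd hy1 (not_lt.2 h4)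
  · rw [div_le_iff₀ (by positivity)]
    have h2 : e * r ^ 2 * (A * W) = Cc * Λ * (C3 L * r ^ 2 * W) := by rw [hA]; field_simp
    have h3 : Cc * Λ * ν.real (Near σ (LL L) r) ≤ Cc * Λ * (C3 L * r ^ 2 * W) := by gcongr
    have h4 : 0 < e * r ^ 2 := by positivity
    rw [mul_add, h2]; linarith

end Crest.Agent.N250.K

end
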