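import Crest.Agent.N250.K.Int

/-!
# Row 250, block A (helper27): the barrier on whole spheres, `kSphS_holds`
-/

set_option autoImplicit false
open MeasureTheory Set Filter Topology
open scoped ContDiff InnerProductSpace
open Crest.GeometryTopology.MCF

noncomputable section

namespace Crest.Agent.N250.K

open Crest.Agent.N250.A

section
variable {ν : Measure ST} [IsFiniteMeasure ν] {σ : ℝ}

/-- persistent mass makes `TT` grow logarithmically -/
lemma TT_ge (hσ : 0 < σ) (hσ1 : σ ≤ 1) {γ D : ℝ} (hγ : 0 < γ) (k : ℕ)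
    (h : ∀ j ≤ k, ENNReal.ofReal (γ * (-(4 : ℝ) ^ j - -4 ^ (j + 1))) ≤
      ν (Metric.ball 0 D ×ˢ Ioo (-(4 : ℝ) ^ (j + 1)) (-4 ^ j))) :
    γ * Real.exp (-D ^ 2 / 4) / (20 * Real.pi) * (k + 1) ≤ TT ν σ (2 ^ k) := by
  set S : ℕ → Set ST := fun j => Metric.ball 0 D ×ˢ Ioo (-(4 : ℝ) ^ (j + 1)) (-4 ^ j) with hS
  have hm : ∀ j, MeasurableSet (S j) := fun j => Metric.isOpen_ball.measurableSet.prod measurableSet_Ioo
  have hsub : ∀ j, S j ⊆ {q : ST | q.2 < 0} := fun j q hq =>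
    hq.2.2.trans (neg_lt_zero.2 (by positivity))
  have hr : (0 : ℝ) ≤ 2 ^ k := by positivity
  have hi := int_wT (ν := ν) hσ hr
  have hd : Set.Pairwise ↑(Finset.range (k + 1)) (Function.onFun Disjoint S) := by
    have : ∀ i j, i < j → Disjoint (S i) (S j) := fun i j hij => by
      refine Set.disjoint_left.2 fun q h1 h2 => ?_
      have : (4 : ℝ) ^ (i + 1) ≤ 4 ^ j := pow_le_pow_right₀ (by norm_num) hij
      linarith [h1.2.1, h2.2.2]
    intro i _ j _ hij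
    rcases lt_or_gt_of_ne hij with h | h
    · exact this i j h
    · exact (this j i h).symm
  have h1 : ∀ j ∈ Finset.range (k + 1), γ * Real.exp (-D ^ 2 / 4) / (20 * Real.pi) ≤
      ∫ q in S j, gau q.1 (σ - q.2) 0 * wT σ (2 ^ k) q ∂ν := by
    intro j hj
    have hjk : j ≤ k := Nat.lt_succ_iff.1 (Finset.mem_range.1 hj)
    have h4 : (1 : ℝ) ≤ 4 ^ j := one_le_pow₀ (by norm_num)
    have h2 : γ * (3 * 4 ^ j) ≤ ν.real (S j) := by
      have := ENNReal.toReal_mono (measure_ne_top _ _) (h j hjk)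
      rw [ENNReal.toReal_ofReal (by rw [pow_succ]; nlinarith)] at this
      rw [pow_succ] at this
      exact le_of_eq_of_le (by ring) this
    have h3 : ∀ q ∈ S j, (20 * Real.pi * 4 ^ j)⁻¹ * Real.exp (-D ^ 2 / 4) * (1 / 3) ≤
        gau q.1 (σ - q.2) 0 * wT σ (2 ^ k) q := by
      intro q hq
      have a1 : 1 ≤ σ - q.2 := by linarith [hq.2.2]
      have a2 : σ - q.2 ≤ 5 * 4 ^ j := by have := hq.2.1; rw [pow_succ] at this; linarith
      have hz : ‖q.1‖ < D := mem_ball_zero_iff.1 hq.1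
      refine mul_le_mul ?_ (le_min (by norm_num) ?_) (by norm_num) (g0_nonneg hσ (hsub j hq))
      · unfold gau
        refine mul_le_mul (inv_anti₀ (by positivity) (by nlinarith [Real.pi_pos]))
          (Real.exp_le_exp.2 ?_) (Real.exp_pos _).le (by positivity)
        rw [zero_sub, norm_neg, neg_div, neg_div, neg_le_neg_iff]
        have : ‖q.1‖ ^ 2 ≤ D ^ 2 := pow_le_pow_left₀ (norm_nonneg _) hz.le 2
        calc _ ≤ D ^ 2 / (4 * (σ - q.2)) := by gcongr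
          _ ≤ D ^ 2 / 4 := by gcongr; linarith
      · have b1 : √(σ - q.2) ≤ 3 * 2 ^ k := by
          refine Real.sqrt_le_iff.2 ⟨by positivity, a2.trans ?_⟩
          have : (4 : ℝ) ^ j ≤ 4 ^ k := pow_le_pow_right₀ (by norm_num) hjk
          rw [mul_pow, ← pow_mul, mul_comm k 2, pow_mul]
          norm_num
          linarith
        have b2 := Real.mul_self_sqrt (show 0 ≤ σ - q.2 by linarith)
        unfold isc
        rw [← mul_div_assoc, le_div_iff₀ (by linarith)]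
        nlinarith [Real.sqrt_nonneg (σ - q.2), mul_nonneg hr (norm_nonneg q.1)]
    refine le_trans ?_ (setIntegral_ge_of_const_le_real (hm j) (measure_ne_top _ _) h3
      (hi.mono_set (hsub j)))
    calc _ = (20 * Real.pi * 4 ^ j)⁻¹ * Real.exp (-D ^ 2 / 4) * (1 / 3) * (γ * (3 * 4 ^ j)) := by
          field_simp
      _ ≤ _ := by gcongr
  have h5 := Finset.sum_le_sum h1
  rw [← integral_biUnion_finset _ (fun j _ => hm j) hd fun j _ => hi.mono_set (hsub j)] at h5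
  simp only [Finset.sum_const, Finset.card_range, nsmul_eq_mul, Nat.cast_add, Nat.cast_one] at h5
  rw [mul_comm]
  refine h5.trans (setIntegral_mono_set hi ((ae_restrict_iff' (meas_lt 0)).2
    (Eventually.of_forall fun q hq => mul_nonneg (g0_nonneg hσ hq) (wT_bd hσ hr hq).1))
    (Eventually.of_forall (iUnion₂_subset fun j _ => hsub j)))

/-- a scale with bounded loss -/
lemma exists_scale (hσ : 0 < σ) {Λ₀ : ℝ} {N : ℕ} (hN : 1 ≤ N)
    (h : TT ν σ (2 ^ (2 * N)) ≤ Λ₀ * ((2 * N : ℕ) + 1)) :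
    ∃ k, N ≤ k ∧ k ≤ 2 * N ∧ WW ν σ (2 ^ k) ≤ 6 * |Λ₀| := by
  have h1 : ∑ i ∈ Finset.range N, WW ν σ (2 ^ (N + (i + 1))) ≤ ∑ _i ∈ Finset.range N, 6 * |Λ₀| := by
    have h2 : ∀ i ∈ Finset.range N, WW ν σ (2 ^ (N + (i + 1))) ≤
        2 * (TT ν σ (2 ^ (N + (i + 1))) - TT ν σ (2 ^ (N + i))) := fun i _ => by
      have := WW_le_diff (ν := ν) hσ (r := 2 ^ (N + (i + 1))) (by positivity)
      rwa [show (2 : ℝ) ^ (N + (i + 1)) / 2 = 2 ^ (N + i) by rw [← add_assoc, pow_succ]; ring] at this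
    refine (Finset.sum_le_sum h2).trans ?_
    rw [← Finset.mul_sum, Finset.sum_range_sub fun i => TT ν σ (2 ^ (N + i)), ← two_mul]
    have h3 := TT_nonneg (ν := ν) hσ (r := 2 ^ (N + 0)) (by positivity)
    have h4 : (1 : ℝ) ≤ N := by exact_mod_cast hN
    simp only [Finset.sum_const, Finset.card_range, nsmul_eq_mul]
    push_cast at h
    nlinarith [le_abs_self Λ₀, abs_nonneg Λ₀]
  obtain ⟨i, hi, h5⟩ := Finset.exists_le_of_sum_le (Finset.nonempty_range_iff.2 (by omega)) h1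
  exact ⟨N + (i + 1), by omega, by have := Finset.mem_range.1 hi; omega, h5⟩

/-- the union of the near sets for `R ∈ [R₀, 2 R₀]` -/
def Big (σ L' R : ℝ) : Set ST := {q | q.2 < -R ^ 2 ∧ σ - q.2 < 8 * R ^ 2 ∧ R * isc σ q < L'}

lemma meas_big (σ L' R : ℝ) : MeasurableSet (Big σ L' R) := by
  have h1 : MeasurableSet {q : ST | σ - q.2 < 8 * R ^ 2} :=
    measurableSet_lt (by fun_prop) measurable_const
  have h2 : MeasurableSet {q : ST | R * isc σ q < L'} :=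
    measurableSet_lt ((meas_isc σ).const_mul R) measurable_const
  exact (meas_lt _).inter (h1.inter h2)

lemma near_big (hσ : 0 < σ) {L' R₀ R : ℝ} (h0 : 0 < R₀) (h1 : R₀ ≤ R) (h2 : R ≤ 2 * R₀) :
    Near σ L' R ⊆ Big σ L' R₀ := fun q hq => by
  have a1 : R₀ ^ 2 ≤ R ^ 2 := pow_le_pow_left₀ h0.le h1 2
  have a2 : R ^ 2 ≤ (2 * R₀) ^ 2 := pow_le_pow_left₀ (by linarith) h2 2
  have a3 : q.2 < -R ^ 2 := hq.1
  refine ⟨by linarith, by nlinarith [hq.2.1], lt_of_le_of_lt ?_ hq.2.2⟩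
  exact mul_le_mul_of_nonneg_right h1 (isc_nonneg (by nlinarith [sq_nonneg R]))

lemma big_le (hσ : 0 < σ) {L R : ℝ} (hL : 0 ≤ L) (hR : 0 < R) :
    ν.real (Big σ (LL L) R) ≤ C3 (2 * L + 9 / 16) * (2 * R) ^ 2 * WW ν σ (R / LL L) := by
  have hL' := LL_pos hL
  have hL2 : 0 ≤ 2 * L + 9 / 16 := by linarith
  have hC := C3_pos hL2
  have e : LL (2 * L + 9 / 16) = 2 * LL L := by unfold LL; ring
  have hr : 0 ≤ R / LL L := by positivity
  have hR2 : 0 < R ^ 2 := by positivity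
  have hs : Big σ (LL L) R ⊆ {q : ST | q.2 < 0} := fun q hq => by
    have : q.2 < -R ^ 2 := hq.1; show q.2 < 0; linarith
  have i1 := (int_wW (ν := ν) hσ hr).const_mul (C3 (2 * L + 9 / 16) * (2 * R) ^ 2)
  rw [WW_eq, ← integral_const_mul]
  calc ν.real (Big σ (LL L) R) = ∫ _ in Big σ (LL L) R, (1 : ℝ) ∂ν := by simp
    _ ≤ ∫ q in Big σ (LL L) R,
        C3 (2 * L + 9 / 16) * (2 * R) ^ 2 * (gau q.1 (σ - q.2) 0 * wW σ (R / LL L) q) ∂ν := by
        refine setIntegral_mono_on (by simp) (IntegrableOn.mono_set i1 hs) (meas_big _ _ _)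
          fun q hq => ?_
        have h1 : q.2 < -R ^ 2 := hq.1
        have h5 : R / LL L * isc σ q < 1 := by
          rw [div_mul_eq_mul_div, div_lt_one hL']; exact hq.2.2
        rw [show wW σ (R / LL L) q = R / LL L * isc σ q from if_pos h5]
        have h6 := hq.2.2
        have := (kp3 (R := 2 * R) (a := σ - q.2) (z := q.1) hL2 (by positivity) (by linarith)
          (by nlinarith [hq.2.1]) (by rw [e, mul_assoc]; unfold isc at h6; linarith)).1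
        rwa [e, mul_div_mul_left _ _ two_ne_zero] at this
    _ ≤ _ := by
        refine setIntegral_mono_set i1 ((ae_restrict_iff' (meas_lt 0)).2
          (Eventually.of_forall fun q hq => ?_)) (Eventually.of_forall hs)
        exact mul_nonneg (by positivity) (mul_nonneg (g0_nonneg hσ hq) (wW_bd hσ hr hq).1)

/-- the largest value of the kernel on the sphere of radius `ρ` -/
def hk (σ : ℝ) (w : ℝ × ℝ) (q : ST) : ENNReal :=
  if q.2 < w.1 then ENNReal.ofReal ((4 * Real.pi * (w.1 - q.2 + σ))⁻¹ *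
    Real.exp (-(4 * (w.1 - q.2 + σ))⁻¹ * (w.2 - ‖q.1‖) ^ 2)) else 0

lemma meas_hk (σ : ℝ) : Measurable fun p : (ℝ × ℝ) × ST => hk σ p.1 p.2 := by
  unfold hk
  exact Measurable.ite (measurableSet_lt (by fun_prop) (by fun_prop)) (by fun_prop) measurable_const

lemma gau_le_hk (hσ : 0 < σ) {s : ℝ} {q : ST} (hq : q.2 < s) (y : E) :
    ENNReal.ofReal (gau q.1 (s - q.2 + σ) y) ≤ hk σ (s, ‖y‖) q := by
  have hb : 0 < s - q.2 + σ := by linarith
  rw [hk, if_pos hq]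
  refine ENNReal.ofReal_le_ofReal (mul_le_mul_of_nonneg_left (Real.exp_le_exp.2 ?_) (by positivity))
  have : (‖y‖ - ‖q.1‖) ^ 2 ≤ ‖y - q.1‖ ^ 2 := by
    rw [← sq_abs]; exact pow_le_pow_left₀ (abs_nonneg _) (abs_norm_sub_norm_le _ _) 2
  rw [neg_div, neg_mul, neg_le_neg_iff, div_eq_inv_mul]
  gcongr

lemma lint_hk (hσ : 0 < σ) {s : ℝ} {q : ST} (hq : q.2 < s) :
    ∫⁻ ρ, hk σ (s, ρ) q ≤ ENNReal.ofReal ((s - q.2) ^ (-(1 / 2) : ℝ)) := by
  have ha : 0 < s - q.2 := by linarith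
  set b := s - q.2 + σ with hb
  have hb0 : 0 < b := by linarith
  have hc : 0 < (4 * b)⁻¹ := by positivity
  have h1 : ∀ ρ, hk σ (s, ρ) q = (fun x => ENNReal.ofReal ((4 * Real.pi * b)⁻¹ *
      Real.exp (-(4 * b)⁻¹ * x ^ 2))) (ρ - ‖q.1‖) := fun ρ => if_pos hq
  rw [funext h1, lintegral_sub_right_eq_self (fun x => ENNReal.ofReal ((4 * Real.pi * b)⁻¹ *
      Real.exp (-(4 * b)⁻¹ * x ^ 2))), ← ofReal_integral_eq_lintegral_ofReal
    ((integrable_exp_neg_mul_sq hc).const_mul _) (Eventually.of_forall fun x => by positivity),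
    integral_const_mul, integral_gaussian]
  refine ENNReal.ofReal_le_ofReal ?_
  rw [Real.rpow_neg ha.le, ← Real.sqrt_eq_rpow, div_inv_eq_mul,
    show Real.pi * (4 * b) = 4 * Real.pi * b by ring]
  have h2 : 0 < 4 * Real.pi * b := by positivity
  rw [inv_mul_eq_div, Real.sqrt_div_self']
  rw [one_div]
  refine inv_anti₀ (Real.sqrt_pos.2 ha) (Real.sqrt_le_sqrt ?_)
  nlinarith [Real.pi_gt_three]

lemma lint_rpow {T : ℝ} (hT : 0 < T) :
    ∫⁻ x in Ioc 0 (T ^ 2), ENNReal.ofReal (x ^ (-(1 / 2) : ℝ)) = ENNReal.ofReal (2 * T) := by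
  have h0 : (0 : ℝ) ≤ T ^ 2 := by positivity
  have h1 := (intervalIntegral.intervalIntegrable_rpow' (a := 0) (b := T ^ 2)
    (show (-1 : ℝ) < -(1 / 2) by norm_num)).1
  rw [← ofReal_integral_eq_lintegral_ofReal h1 ((ae_restrict_iff' measurableSet_Ioc).2
    (Eventually.of_forall fun x hx => Real.rpow_nonneg hx.1.le _)),
    ← intervalIntegral.integral_of_le h0, integral_rpow (Or.inl (by norm_num))]
  congr 1
  rw [show (-(1 / 2) + 1 : ℝ) = 1 / 2 by norm_num, Real.zero_rpow (by norm_num),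
    ← Real.sqrt_eq_rpow, Real.sqrt_sq hT.le]
  ring

lemma lint_win (hσ : 0 < σ) {L' R : ℝ} (hR : 0 < R) {q : ST} (hq : q ∈ Big σ L' R) :
    ∫⁻ w in Ioo (-(4 * R ^ 2)) (-R ^ 2) ×ˢ Icc R (2 * R), hk σ w q ≤ ENNReal.ofReal (6 * R) := by
  have hm : Measurable fun w => hk σ w q := (meas_hk σ).comp (measurable_id.prodMk measurable_const)
  rw [Measure.volume_eq_prod, ← Measure.prod_restrict, lintegral_prod _ hm.aemeasurable]
  set φ : ℝ → ENNReal := (Ioc 0 ((3 * R) ^ 2)).indicator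
    fun x => ENNReal.ofReal (x ^ (-(1 / 2) : ℝ)) with hφ
  calc _ ≤ ∫⁻ s in Ioo (-(4 * R ^ 2)) (-R ^ 2), φ (s - q.2) := by
        refine setLIntegral_mono' measurableSet_Ioo fun s hs => ?_
        by_cases h : q.2 < s
        · rw [hφ, indicator_of_mem (show s - q.2 ∈ Ioc 0 ((3 * R) ^ 2) from
            ⟨by linarith, by nlinarith [hq.2.1, hs.2]⟩)]
          exact (setLIntegral_le_lintegral _ _).trans (lint_hk hσ h)
        · simp [hk, h]
    _ ≤ ∫⁻ s, φ (s - q.2) := setLIntegral_le_lintegral _ _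
    _ = _ := by
        rw [lintegral_sub_right_eq_self, hφ, lintegral_indicator measurableSet_Ioc,
          lint_rpow (by positivity)]
        congr 1; ring

/-- a sphere and a time at which the potential of the near mass is bounded -/
lemma exists_sphere (hσ : 0 < σ) {L' R₀ A : ℝ} (hR : 0 < R₀) (hA : 0 ≤ A)
    (h : ν.real (Big σ L' R₀) ≤ A * R₀ ^ 2) :
    ∃ R ∈ Icc R₀ (2 * R₀), ∃ ρ ∈ Icc R₀ (2 * R₀), ∀ y : E, ‖y‖ = ρ →
      VV ν σ (Near σ L' R) (-R ^ 2) y ≤ 2 * A + 1 := by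
  set W : Set (ℝ × ℝ) := Ioo (-(4 * R₀ ^ 2)) (-R₀ ^ 2) ×ˢ Icc R₀ (2 * R₀) with hW
  have hWm : MeasurableSet W := measurableSet_Ioo.prod measurableSet_Icc
  have h1 : ∫⁻ w in W, ∫⁻ q in Big σ L' R₀, hk σ w q ∂ν ≤ ENNReal.ofReal (6 * R₀ * (A * R₀ ^ 2)) := by
    rw [lintegral_lintegral_swap (meas_hk σ).aemeasurable]
    calc _ ≤ ∫⁻ _ in Big σ L' R₀, ENNReal.ofReal (6 * R₀) ∂ν :=
          setLIntegral_mono' (meas_big _ _ _) fun q hq => lint_win hσ hR hq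
      _ ≤ _ := by
          rw [setLIntegral_const, ENNReal.ofReal_mul (p := 6 * R₀) (by positivity)]
          gcongr
          rw [← ENNReal.ofReal_toReal (measure_ne_top ν _)]
          exact ENNReal.ofReal_le_ofReal h
  have h2 : ∃ w ∈ W, ∫⁻ q in Big σ L' R₀, hk σ w q ∂ν ≤ ENNReal.ofReal (2 * A + 1) := by
    by_contra hc
    push Not at hc
    have h3 := (setLIntegral_mono' hWm fun w hw => (hc w hw).le).trans h1
    rw [setLIntegral_const, hW, Measure.volume_eq_prod, Measure.prod_prod, Real.volume_Ioo,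
      Real.volume_Icc, ← ENNReal.ofReal_mul (by nlinarith), ← ENNReal.ofReal_mul (by positivity),
      ENNReal.ofReal_le_ofReal_iff (by positivity)] at h3
    nlinarith [pow_pos hR 3]
  obtain ⟨⟨s, ρ⟩, ⟨hs, hρ⟩, h3⟩ := h2
  have hs0 : 0 ≤ -s := by nlinarith [hs.2, sq_nonneg R₀]
  have e : -√(-s) ^ 2 = s := by rw [Real.sq_sqrt hs0, neg_neg]
  have hR1 : R₀ ≤ √(-s) := Real.le_sqrt_of_sq_le (by linarith [hs.2])
  have hR2 : √(-s) ≤ 2 * R₀ := Real.sqrt_le_iff.2 ⟨by positivity, by nlinarith [hs.1]⟩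
  refine ⟨√(-s), ⟨hR1, hR2⟩, ρ, hρ, fun y hy => ?_⟩
  have hlt : ∀ q ∈ Near σ L' √(-s), q.2 < -√(-s) ^ 2 := fun q hq => hq.1
  rw [← ENNReal.ofReal_le_ofReal_iff (by positivity), VV,
    ofReal_integral_eq_lintegral_ofReal (int_gauQ hσ (meas_near _ _ _) hlt y)
      ((ae_restrict_iff' (meas_near _ _ _)).2
        (Eventually.of_forall fun q hq => (gau_bd hσ y (hlt q hq)).1))]
  refine le_trans ?_ ((lintegral_mono_set (near_big hσ hR hR1 hR2)).trans h3)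
  refine setLIntegral_mono' (meas_near _ _ _) fun q hq => ?_
  have := gau_le_hk hσ (hlt q hq) y
  rw [hy] at this
  conv_rhs => rw [← e]
  exact this

end

lemma sph_log_le {ρ L : ℝ} {k : ℕ} (hL : 1 ≤ L) (hρ : 0 < ρ) (h : ρ ≤ 2 * (L * 2 ^ k)) :
    Real.log ρ ≤ 2 * L + k := by
  have b1 := Real.log_le_log hρ h
  rw [← mul_assoc, Real.log_mul (by positivity) (by positivity), Real.log_pow] at b1
  have b2 := Real.log_le_self (show 0 ≤ 2 * L by positivity)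
  have b3 : Real.log 2 ≤ 1 := by
    have := Real.log_le_sub_one_of_pos (show (0 : ℝ) < 2 by norm_num); linarith
  have b4 := mul_le_mul_of_nonneg_left b3 (Nat.cast_nonneg (α := ℝ) k)
  linarith

lemma sph_four_pow_le {j k : ℕ} (hj : j ≤ k) : (4 : ℝ) ^ (j + 1) ≤ (2 * 2 ^ k) ^ 2 := by
  rw [← pow_succ', ← pow_mul, mul_comm _ 2, pow_mul]
  norm_num
  exact pow_le_pow_right₀ (by norm_num) (by omega)

theorem kSphS_holds : KSphS := by
  intro Λ₀ γ D hγ _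
  obtain ⟨g, hg⟩ : ∃ g, g = γ * Real.exp (-D ^ 2 / 4) / (20 * Real.pi) := ⟨_, rfl⟩
  have hg0 : 0 < g := by rw [hg]; positivity
  have hL : (0 : ℝ) ≤ 2 := by norm_num
  have hL1 := LL_ge hL
  have hC2 := C2_pos hL
  have hC3 := C3_pos (show (0 : ℝ) ≤ 2 * 2 + 9 / 16 by norm_num)
  obtain ⟨A, hA⟩ : ∃ A, A = C3 (2 * 2 + 9 / 16) * 4 * (6 * |Λ₀|) := ⟨_, rfl⟩
  obtain ⟨B, hB⟩ : ∃ B, B = (C2 2 * LL 2 + 1) * (2 * (6 * |Λ₀|)) + (2 * A + 1) + 2 := ⟨_, rfl⟩
  refine ⟨Real.exp (-B - g / 2 * (2 * LL 2)), g / 2, Real.exp_pos _, by positivity, fun ρ₁ => ?_⟩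
  obtain ⟨N, hN1, hN2⟩ : ∃ N : ℕ, 1 ≤ N ∧ ⌈ρ₁⌉₊ ≤ N := ⟨_, le_max_left _ _, le_max_right _ _⟩
  have h2N : (1 : ℝ) ≤ 2 ^ (2 * N) := one_le_pow₀ (by norm_num)
  refine ⟨2 * (LL 2 * 2 ^ (2 * N)), 2 * N, by linarith [one_le_mul_of_one_le_of_one_le hL1 h2N],
    fun ν _ σ hσ hσ1 hT hm => ?_⟩
  obtain ⟨k, hk1, hk2, hW⟩ := exists_scale hσ hN1 (hT (2 * N) le_rfl)
  have hk : (1 : ℝ) ≤ 2 ^ k := one_le_pow₀ (by norm_num)
  have hk' : (2 : ℝ) ^ k ≤ 2 ^ (2 * N) := pow_le_pow_right₀ (by norm_num) hk2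
  obtain ⟨R₀, hR₀⟩ : ∃ R₀, R₀ = LL 2 * 2 ^ k := ⟨_, rfl⟩
  have hR2 : 2 ^ k ≤ R₀ := by rw [hR₀]; exact le_mul_of_one_le_left (by positivity) hL1
  have hR1 : 1 ≤ R₀ := hk.trans hR2
  have hτ : 2 * R₀ ≤ 2 * (LL 2 * 2 ^ (2 * N)) := by rw [hR₀]; gcongr
  have e0 : R₀ / LL 2 = 2 ^ k := by rw [hR₀]; field_simp
  have h1 : g * (k + 1) ≤ TT ν σ (2 ^ k) := hg ▸ TT_ge hσ hσ1 hγ k fun j hj => by
    have a1 : (1 : ℝ) ≤ 4 ^ j := one_le_pow₀ (by norm_num)
    refine hm _ _ ?_ (by rw [pow_succ]; linarith) (by linarith)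
    exact neg_le_neg ((sph_four_pow_le hj).trans (pow_le_pow_left₀ (by positivity) (by linarith) 2))
  have h2 : ν.real (Big σ (LL 2) R₀) ≤ A * R₀ ^ 2 := by
    refine (big_le hσ hL (by linarith)).trans ?_
    rw [e0, hA]
    exact (mul_le_mul_of_nonneg_left hW (by positivity)).trans_eq (by ring)
  obtain ⟨R, hR, ρ, hρ, h3⟩ := exists_sphere hσ (by linarith) (by rw [hA]; positivity) h2
  have hR0 : 0 < R := by linarith [hR.1]
  refine ⟨ρ, ⟨?_, hρ.2.trans hτ⟩, -R ^ 2, ⟨neg_le_neg (pow_le_pow_left₀ hR0.le (hR.2.trans hτ) 2),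
    neg_le_neg (one_le_pow₀ (hR1.trans hR.1))⟩, fun y hy => ?_⟩
  · have a1 : ρ₁ ≤ (k : ℝ) := (Nat.le_ceil ρ₁).trans (by exact_mod_cast hN2.trans hk1)
    have a2 : (k : ℝ) ≤ 2 ^ k := by exact_mod_cast Nat.lt_two_pow_self.le
    linarith [hρ.1]
  have h4 := k1 (ν := ν) hσ hL hR0 (y := y) (by linarith [hρ.2, hR.1])
  have e1 : R / LL 2 = R / R₀ * 2 ^ k := by rw [hR₀]; field_simp
  have a1 : 1 ≤ R / R₀ := (one_le_div (by linarith)).2 hR.1
  have a2 : R / R₀ ≤ 2 := (div_le_iff₀ (by linarith)).2 hR.2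
  have h5 : TT ν σ (2 ^ k) ≤ TT ν σ (R / LL 2) :=
    TT_mono hσ (by positivity) (by rw [e1]; exact le_mul_of_one_le_left (by positivity) a1)
  have h6 : WW ν σ (R / LL 2) ≤ 2 * (6 * |Λ₀|) := by
    rw [e1]
    refine (WW_mul_le hσ (by positivity) a1).trans ?_
    exact mul_le_mul a2 hW (WW_nonneg hσ (by positivity)) (by norm_num)
  have h7 := mul_le_mul_of_nonneg_left h6 (show 0 ≤ C2 2 * LL 2 + 1 by positivity)
  have hρ0 : 0 < ρ := by linarith [hρ.1]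
  have h8 := mul_le_mul_of_nonneg_right (sph_log_le hL1 hρ0 (hR₀ ▸ hρ.2)) (show 0 ≤ g / 2 by positivity)
  rw [rad, Real.rpow_def_of_pos hρ0, ← Real.exp_add, Real.exp_le_exp]
  linarith [h3 y hy]

end Crest.Agent.N250.K

end
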