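import Crest.Agent.N250.A.Stm
import Crest.Agent.N250.T.Gau

/-!
# Row 250, block A (helper25): kernel inequalities

`kp1`–`kp3` pointwise ratios of heat kernels, `k1` the comparison of `pot` at `(y, -R²)` and at
the origin, `near_le`, monotonicity of `TT`, `WW`, and Chebyshev's inequality `cheb`.
-/

set_option autoImplicit false
open MeasureTheory Set Filter Topology
open scoped ContDiff InnerProductSpace
open Crest.GeometryTopology.MCF

noncomputable section

namespace Crest.Agent.N250.K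

open Crest.Agent.N250.A

/-- the loss functional: mass of effective scale above `r`, with weight `r / scale` -/
def WW (ν : Measure ST) (σ r : ℝ) : ℝ :=
  ∫ q in {q : ST | q.2 < 0}, gau q.1 (σ - q.2) 0 * (if r * isc σ q < 1 then r * isc σ q else 0) ∂ν

/-- mass elements close to the slice `-R²` in time and space -/
def Near (σ L' R : ℝ) : Set ST := {q | q.2 < -R ^ 2 ∧ σ - q.2 < 2 * R ^ 2 ∧ R * isc σ q < L'}

/-- potential at `(y, s)` of the mass in `Q` -/
def VV (ν : Measure ST) (σ : ℝ) (Q : Set ST) (s : ℝ) (y : E) : ℝ :=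
  ∫ q in Q, gau q.1 (s - q.2 + σ) y ∂ν

/-- `L'` -/
def LL (L : ℝ) : ℝ := 16 * L + 9

/-- constant of `kp2` -/
def C2 (L : ℝ) : ℝ := 2 + L * Real.exp (L * LL L) * (1 + 2 * LL L)

/-- constant of `kp3` -/
def C3 (L : ℝ) : ℝ := 16 * Real.pi * LL L * Real.exp (LL L ^ 2 / 2)

lemma LL_ge {L : ℝ} (hL : 0 ≤ L) : 1 ≤ LL L := by unfold LL; linarith
lemma LL_pos {L : ℝ} (hL : 0 ≤ L) : 0 < LL L := by unfold LL; linarith
lemma C2_pos {L : ℝ} (hL : 0 ≤ L) : 0 < C2 L := by
  have := LL_pos hL; unfold C2; positivity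
lemma C3_pos {L : ℝ} (hL : 0 ≤ L) : 0 < C3 L := by
  have := LL_pos hL; unfold C3; positivity

lemma gau_nonneg (y : E) {s : ℝ} (hs : 0 ≤ s) (x : E) : 0 ≤ gau y s x := by
  unfold gau; positivity

lemma gau_le (y : E) {s : ℝ} (hs : 0 < s) (x : E) : gau y s x ≤ (4 * Real.pi * s)⁻¹ := by
  unfold gau
  refine mul_le_of_le_one_right (by positivity) (Real.exp_le_one_iff.2 ?_)
  exact div_nonpos_of_nonpos_of_nonneg (neg_nonpos.2 (sq_nonneg _)) (by positivity)

lemma gau_symm (y x : E) (s : ℝ) : gau y s x = gau x s y := by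
  unfold gau; rw [norm_sub_rev]

/-- the ratio of two kernels -/
lemma gau_ratio {a b : ℝ} (ha : 0 < a) (hb : 0 < b) (y z : E) :
    gau z b y = gau z a 0 * (a / b * Real.exp (‖z‖ ^ 2 / (4 * a) - ‖y - z‖ ^ 2 / (4 * b))) := by
  unfold gau
  rw [zero_sub, norm_neg, show -‖y - z‖ ^ 2 / (4 * b) =
    -‖z‖ ^ 2 / (4 * a) + (‖z‖ ^ 2 / (4 * a) - ‖y - z‖ ^ 2 / (4 * b)) by ring, Real.exp_add]
  field_simp

lemma sqrt_ge {a R : ℝ} (hR : 0 < R) (h : R ^ 2 ≤ a) : R ≤ √a := Real.le_sqrt_of_sq_le h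

/-- far mass: the ratio is at most `1 / 2` -/
lemma kp1 {L R b : ℝ} (hL : 0 ≤ L) (hR : 0 < R) (hb : 0 < b) {y z : E} (hy : ‖y‖ ≤ L * R)
    (h : LL L ≤ R * ((√(b + R ^ 2) + ‖z‖) / (b + R ^ 2))) :
    gau z b y ≤ gau z (b + R ^ 2) 0 / 2 := by
  set a := b + R ^ 2 with ha_def
  have ha : 0 < a := by positivity
  set u := ‖z‖ with hu
  have hu0 : 0 ≤ u := norm_nonneg _
  have hs : R ≤ √a := sqrt_ge hR (by linarith)
  have hsa : √a * √a = a := Real.mul_self_sqrt ha.le
  have h1 : R * √a ≤ a := by nlinarith [Real.sqrt_nonneg a]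
  set w := R * u / a with hw
  have hw1 : 16 * L + 8 ≤ w := by
    have : R * ((√a + u) / a) = R * √a / a + w := by rw [hw]; field_simp
    have h2 : R * √a / a ≤ 1 := (div_le_one ha).2 h1
    unfold LL at h; linarith
  have hwa : w * a = R * u := by rw [hw]; field_simp
  set x := a / b with hx
  have hx1 : 1 ≤ x := by rw [hx, le_div_iff₀ hb]; nlinarith [sq_nonneg R]
  have huL : 2 * (L * R) ≤ u := by
    have h3 : (16 * L + 8) * R ^ 2 ≤ w * a := by
      apply mul_le_mul hw1 (by linarith) (by positivity) (by linarith)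
    have : R * (2 * (L * R)) ≤ R * u := by nlinarith [sq_nonneg R]
    exact le_of_mul_le_mul_left this hR
  have hyz : u - L * R ≤ ‖y - z‖ := by
    have := norm_sub_norm_le z y
    rw [norm_sub_rev] at this; linarith
  have hLR : 0 ≤ L * R := by positivity
  have hsq : (u - L * R) ^ 2 ≤ ‖y - z‖ ^ 2 := by
    apply pow_le_pow_left₀ (by linarith) hyz
  have hexp : u ^ 2 / (4 * a) - ‖y - z‖ ^ 2 / (4 * b) ≤ -(4 * x) := by
    have e1 : ‖y - z‖ ^ 2 / (4 * b) ≥ (u - L * R) ^ 2 / (4 * b) := by gcongr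
    have e2 : (u - L * R) ^ 2 / (4 * b) =
        (u - L * R) ^ 2 / (4 * a) + (u - L * R) ^ 2 * R ^ 2 / (4 * a * b) := by
      rw [ha_def]; field_simp
    have e3 : (u - L * R) ^ 2 * R ^ 2 / (4 * a * b) ≥ w ^ 2 * x / 16 := by
      have : w ^ 2 * x / 16 = (u / 2) ^ 2 * R ^ 2 / (4 * a * b) := by
        rw [hw, hx]; field_simp; ring
      rw [this]
      have : (u / 2) ^ 2 ≤ (u - L * R) ^ 2 := pow_le_pow_left₀ (by positivity) (by linarith) 2
      gcongr
    have e4 : u ^ 2 / (4 * a) - (u - L * R) ^ 2 / (4 * a) ≤ L * w / 2 := by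
      rw [← sub_div, div_le_iff₀ (by positivity)]
      nlinarith [sq_nonneg (L * R)]
    have hw0 : 0 ≤ w := by linarith
    have e5 : L * w + 4 * x ≤ w ^ 2 * x / 16 := by
      have f1 : (16 * L + 8) * (w * x) ≤ w * (w * x) := by
        apply mul_le_mul_of_nonneg_right hw1; positivity
      have f2 : L * w ≤ L * (w * x) := by
        apply mul_le_mul_of_nonneg_left _ hL; nlinarith
      have f3 : 8 * x ≤ w * x := by apply mul_le_mul_of_nonneg_right (by linarith); linarith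
      nlinarith
    have : 0 ≤ L * w := by positivity
    linarith
  rw [gau_ratio ha hb y z]
  have h2 : x * Real.exp (u ^ 2 / (4 * a) - ‖y - z‖ ^ 2 / (4 * b)) ≤ 1 / 2 := by
    have f1 := Real.exp_le_exp.2 hexp
    have f2 : Real.exp (-(4 * x)) * (4 * x + 1) ≤ 1 := by
      have := Real.add_one_le_exp (4 * x)
      calc _ ≤ Real.exp (-(4 * x)) * Real.exp (4 * x) := by gcongr
        _ = 1 := by rw [← Real.exp_add]; simp
    have f3 := Real.exp_pos (-(4 * x))
    nlinarith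
  have := gau_nonneg z ha.le 0
  nlinarith

/-- old mass: the ratio is at most `1 + C R / scale` -/
lemma kp2 {L R b : ℝ} (hL : 0 ≤ L) (hR : 0 < R) (hb : R ^ 2 ≤ b) {y z : E} (hy : ‖y‖ ≤ L * R)
    (h : R * ((√(b + R ^ 2) + ‖z‖) / (b + R ^ 2)) ≤ LL L) :
    gau z b y ≤ gau z (b + R ^ 2) 0 *
      (1 + C2 L * (R * ((√(b + R ^ 2) + ‖z‖) / (b + R ^ 2)))) := by
  have hb0 : 0 < b := lt_of_lt_of_le (by positivity) hb
  set a := b + R ^ 2 with ha_def
  have ha : 0 < a := by positivity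
  set u := ‖z‖ with hu
  have hu0 : 0 ≤ u := norm_nonneg _
  have hs : R ≤ √a := sqrt_ge hR (by linarith)
  set q := R * ((√a + u) / a) with hq
  have hqa : q * a = R * √a + R * u := by rw [hq]; field_simp
  have hq0 : 0 ≤ q := by positivity
  have h1 : a / b ≤ 1 + 2 * q := by
    rw [div_le_iff₀ hb0]
    have f1 : R * R ≤ R * √a := by gcongr
    have f2 : R ^ 2 ≤ q * a := by nlinarith [mul_nonneg hR.le hu0]
    have f3 : q * a ≤ q * (2 * b) := by apply mul_le_mul_of_nonneg_left _ hq0; linarith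
    nlinarith
  have hyz : u ^ 2 - 2 * (L * R) * u ≤ ‖y - z‖ ^ 2 := by
    have f1 : |‖z‖ - ‖y‖| ≤ ‖z - y‖ := abs_norm_sub_norm_le z y
    have f2 : (u - ‖y‖) ^ 2 ≤ ‖y - z‖ ^ 2 := by
      rw [norm_sub_rev y z, ← sq_abs]; exact pow_le_pow_left₀ (abs_nonneg _) f1 2
    nlinarith [norm_nonneg y, sq_nonneg ‖y‖]
  have hexp : u ^ 2 / (4 * a) - ‖y - z‖ ^ 2 / (4 * b) ≤ L * q := by
    have e1 : u ^ 2 / (4 * a) ≤ u ^ 2 / (4 * b) := by gcongr; nlinarith [sq_nonneg R]
    have e2 : u ^ 2 / (4 * b) - ‖y - z‖ ^ 2 / (4 * b) ≤ L * q := by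
      rw [← sub_div, div_le_iff₀ (by positivity)]
      have f1 : R * u ≤ q * a := by nlinarith [mul_nonneg hR.le (Real.sqrt_nonneg a)]
      have f3 : q * a ≤ q * (2 * b) := by apply mul_le_mul_of_nonneg_left _ hq0; linarith
      have f4 : L * (R * u) ≤ L * (q * (2 * b)) := mul_le_mul_of_nonneg_left (f1.trans f3) hL
      nlinarith
    linarith
  have h2 : Real.exp (L * q) ≤ 1 + L * q * Real.exp (L * LL L) := by
    have f1 := Real.add_one_le_exp (-(L * q))
    have f2 : Real.exp (-(L * q)) * Real.exp (L * q) = 1 := by rw [← Real.exp_add]; simp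
    have f3 : Real.exp (L * q) ≤ Real.exp (L * LL L) :=
      Real.exp_le_exp.2 (mul_le_mul_of_nonneg_left h hL)
    have f4 := Real.exp_pos (L * q)
    have f5 : 0 ≤ L * q := by positivity
    nlinarith [mul_le_mul_of_nonneg_left f3 f5]
  rw [gau_ratio ha hb0 y z]
  apply mul_le_mul_of_nonneg_left _ (gau_nonneg z ha.le 0)
  have f5 : 0 ≤ L * Real.exp (L * LL L) := by positivity
  calc a / b * Real.exp (u ^ 2 / (4 * a) - ‖y - z‖ ^ 2 / (4 * b))
      ≤ (1 + 2 * q) * (1 + L * q * Real.exp (L * LL L)) := by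
        apply mul_le_mul h1 ((Real.exp_le_exp.2 hexp).trans h2) (Real.exp_pos _).le (by positivity)
    _ ≤ 1 + C2 L * q := by
        unfold C2
        have : L * Real.exp (L * LL L) * q * q ≤ L * Real.exp (L * LL L) * q * LL L := by
          apply mul_le_mul_of_nonneg_left h; positivity
        nlinarith

/-- near mass is seen by the kernel at the origin -/
lemma kp3 {L R a : ℝ} (hL : 0 ≤ L) (hR : 0 < R) (ha : 0 < a) (ha2 : a ≤ 2 * R ^ 2) {z : E}
    (h : R * ((√a + ‖z‖) / a) ≤ LL L) :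
    1 ≤ C3 L * R ^ 2 * (gau z a 0 * (R / LL L * ((√a + ‖z‖) / a))) ∧ ‖z‖ ≤ 2 * LL L * R := by
  have hL' := LL_pos hL
  set u := ‖z‖ with hu
  have hu0 : 0 ≤ u := norm_nonneg _
  have hsa : √a * √a = a := Real.mul_self_sqrt ha.le
  have hs0 : 0 < √a := Real.sqrt_pos.2 ha
  set q := R * ((√a + u) / a) with hq
  have hqa : q * a = R * √a + R * u := by rw [hq]; field_simp
  have h1 : R * u ≤ LL L * a := by
    have := mul_le_mul_of_nonneg_right h ha.le
    nlinarith [mul_pos hR hs0]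
  have h1' : u ≤ 2 * LL L * R := by
    have : R * u ≤ R * (2 * LL L * R) := by nlinarith
    exact le_of_mul_le_mul_left this hR
  refine ⟨?_, h1'⟩
  have h2 : u ^ 2 / (4 * a) ≤ LL L ^ 2 / 2 := by
    rw [div_le_iff₀ (by positivity)]
    have f1 : R * u * u ≤ LL L * a * (2 * LL L * R) := by
      apply mul_le_mul h1 h1' hu0 (by positivity)
    have : R * u ^ 2 ≤ R * (LL L ^ 2 / 2 * (4 * a)) := by nlinarith
    exact le_of_mul_le_mul_left this hR
  have h3 : 1 / 2 ≤ q := by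
    have f1 : √a ≤ 2 * R := by
      apply Real.sqrt_le_iff.2 ⟨by positivity, by nlinarith [sq_nonneg R]⟩
    have f2 : 1 / 2 * a ≤ q * a := by nlinarith [mul_nonneg hR.le hu0]
    exact le_of_mul_le_mul_right f2 ha
  have h4 : (8 * Real.pi * R ^ 2)⁻¹ * Real.exp (-(LL L ^ 2 / 2)) ≤ gau z a 0 := by
    unfold gau
    rw [zero_sub, norm_neg]
    apply mul_le_mul _ (Real.exp_le_exp.2 (by rw [neg_div]; linarith)) (Real.exp_pos _).le
      (by positivity)
    apply inv_anti₀ (by positivity)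
    nlinarith [Real.pi_pos]
  have h5 : R / LL L * ((√a + u) / a) = q / LL L := by rw [hq]; ring
  rw [h5]
  calc (1 : ℝ) = C3 L * R ^ 2 * ((8 * Real.pi * R ^ 2)⁻¹ * Real.exp (-(LL L ^ 2 / 2)) *
        (1 / 2 / LL L)) := by
        unfold C3; rw [Real.exp_neg]; field_simp; ring
    _ ≤ _ := by
        have := C3_pos hL
        gcongr
        exact gau_nonneg z ha.le 0

end Crest.Agent.N250.K

end
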