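import Crest.Agent.N250.K.Base

/-!
# Row 250, block A (helper25): integrated kernel inequalities
-/

set_option autoImplicit false
open MeasureTheory Set Filter Topology
open scoped ContDiff InnerProductSpace
open Crest.GeometryTopology.MCF

noncomputable section

namespace Crest.Agent.N250.K

open Crest.Agent.N250.A

lemma meas_gau (σ s : ℝ) (y : E) : Measurable fun q : ST => gau q.1 (s - q.2 + σ) y := by
  unfold gau; fun_prop

lemma meas_gau0 (σ : ℝ) : Measurable fun q : ST => gau q.1 (σ - q.2) 0 := by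
  unfold gau; fun_prop

lemma meas_isc (σ : ℝ) : Measurable (isc σ) := by
  unfold isc; fun_prop

lemma meas_lt (s : ℝ) : MeasurableSet {q : ST | q.2 < s} :=
  measurableSet_lt measurable_snd measurable_const

lemma meas_near (σ L' R : ℝ) : MeasurableSet (Near σ L' R) := by
  have h1 : MeasurableSet {q : ST | σ - q.2 < 2 * R ^ 2} :=
    measurableSet_lt (by fun_prop) measurable_const
  have h2 : MeasurableSet {q : ST | R * isc σ q < L'} :=
    measurableSet_lt ((meas_isc σ).const_mul R) measurable_const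
  exact (meas_lt _).inter (h1.inter h2)

lemma isc_nonneg {σ : ℝ} {q : ST} (h : 0 ≤ σ - q.2) : 0 ≤ isc σ q := by
  unfold isc; positivity

/-- bounded measurable functions are integrable -/
lemma intOn {ν : Measure ST} [IsFiniteMeasure ν] {S : Set ST} (hS : MeasurableSet S) {f : ST → ℝ}
    (hf : Measurable f) {c : ℝ} (h : ∀ q ∈ S, |f q| ≤ c) : IntegrableOn f S ν :=
  Measure.integrableOn_of_bounded (M := c) (measure_ne_top _ _) hf.aestronglyMeasurable
    ((ae_restrict_iff' hS).2 (Eventually.of_forall h))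

section
variable {ν : Measure ST} [IsFiniteMeasure ν] {σ : ℝ}

lemma gau_bd (hσ : 0 < σ) {s : ℝ} (y : E) {q : ST} (hq : q.2 < s) :
    0 ≤ gau q.1 (s - q.2 + σ) y ∧ gau q.1 (s - q.2 + σ) y ≤ (4 * Real.pi * σ)⁻¹ := by
  refine ⟨gau_nonneg _ (by linarith) _, (gau_le _ (by linarith) _).trans ?_⟩
  apply inv_anti₀ (by positivity)
  nlinarith [Real.pi_pos]

lemma int_gauQ (hσ : 0 < σ) {Q : Set ST} (hQ : MeasurableSet Q) {s : ℝ} (hs : ∀ q ∈ Q, q.2 < s)
    (y : E) : IntegrableOn (fun q : ST => gau q.1 (s - q.2 + σ) y) Q ν :=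
  intOn hQ (meas_gau σ s y) (c := (4 * Real.pi * σ)⁻¹) fun q hq => by
    obtain ⟨h1, h2⟩ := gau_bd hσ y (hs q hq)
    rwa [abs_of_nonneg h1]

/-- the kernel at the origin times a weight in `[0, c]` -/
lemma int_w (hσ : 0 < σ) {w : ST → ℝ} (hw : Measurable w) {c : ℝ}
    (h : ∀ q : ST, q.2 < 0 → |w q| ≤ c) :
    IntegrableOn (fun q : ST => gau q.1 (σ - q.2) 0 * w q) {q : ST | q.2 < 0} ν :=
  intOn (meas_lt 0) ((meas_gau0 σ).mul hw) (c := (4 * Real.pi * σ)⁻¹ * c) fun q hq => by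
    obtain ⟨h1, h2⟩ := gau_bd hσ 0 (s := 0) hq
    rw [show (0 : ℝ) - q.2 + σ = σ - q.2 by ring] at h1 h2
    rw [abs_mul, abs_of_nonneg h1]
    exact mul_le_mul h2 (h q hq) (abs_nonneg _) (by positivity)

/-- weight of `TT` -/
def wT (σ r : ℝ) (q : ST) : ℝ := min 1 (r * isc σ q)
/-- weight of `WW` -/
def wW (σ r : ℝ) (q : ST) : ℝ := if r * isc σ q < 1 then r * isc σ q else 0

lemma meas_wT (σ r : ℝ) : Measurable (wT σ r) :=
  measurable_const.min ((meas_isc σ).const_mul r)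

lemma meas_wW (σ r : ℝ) : Measurable (wW σ r) :=
  Measurable.ite (measurableSet_lt ((meas_isc σ).const_mul r) measurable_const)
    ((meas_isc σ).const_mul r) measurable_const

lemma wT_bd (hσ : 0 < σ) {r : ℝ} (hr : 0 ≤ r) {q : ST} (hq : q.2 < 0) :
    0 ≤ wT σ r q ∧ wT σ r q ≤ 1 :=
  ⟨le_min zero_le_one (mul_nonneg hr (isc_nonneg (by linarith))), min_le_left _ _⟩

lemma wW_bd (hσ : 0 < σ) {r : ℝ} (hr : 0 ≤ r) {q : ST} (hq : q.2 < 0) :
    0 ≤ wW σ r q ∧ wW σ r q ≤ wT σ r q := by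
  have := mul_nonneg hr (isc_nonneg (σ := σ) (q := q) (by linarith))
  unfold wW wT
  split_ifs with h
  · exact ⟨this, le_min h.le le_rfl⟩
  · exact ⟨le_rfl, le_min zero_le_one this⟩

lemma int_wT (hσ : 0 < σ) {r : ℝ} (hr : 0 ≤ r) :
    IntegrableOn (fun q : ST => gau q.1 (σ - q.2) 0 * wT σ r q) {q : ST | q.2 < 0} ν :=
  int_w hσ (meas_wT σ r) (c := 1) fun q hq => by
    obtain ⟨h1, h2⟩ := wT_bd hσ hr hq; rwa [abs_of_nonneg h1]

lemma int_wW (hσ : 0 < σ) {r : ℝ} (hr : 0 ≤ r) :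
    IntegrableOn (fun q : ST => gau q.1 (σ - q.2) 0 * wW σ r q) {q : ST | q.2 < 0} ν :=
  int_w hσ (meas_wW σ r) (c := 1) fun q hq => by
    obtain ⟨h1, h2⟩ := wW_bd hσ hr hq
    rw [abs_of_nonneg h1]; exact h2.trans (wT_bd hσ hr hq).2

lemma int_g0 (hσ : 0 < σ) :
    IntegrableOn (fun q : ST => gau q.1 (σ - q.2) 0) {q : ST | q.2 < 0} ν := by
  simpa using int_w (ν := ν) hσ (w := fun _ => 1) measurable_const (c := 1) (by simp)

omit [IsFiniteMeasure ν] in
lemma TT_eq (r : ℝ) :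
    TT ν σ r = ∫ q in {q : ST | q.2 < 0}, gau q.1 (σ - q.2) 0 * wT σ r q ∂ν := rfl
omit [IsFiniteMeasure ν] in
lemma WW_eq (r : ℝ) :
    WW ν σ r = ∫ q in {q : ST | q.2 < 0}, gau q.1 (σ - q.2) 0 * wW σ r q ∂ν := rfl
omit [IsFiniteMeasure ν] in
lemma pot_zero : pot ν σ 0 = ∫ q in {q : ST | q.2 < 0}, gau q.1 (σ - q.2) 0 ∂ν := by
  unfold pot
  simp only [Prod.snd_zero, Prod.fst_zero, zero_sub]
  congr 1; funext q; rw [show -q.2 + σ = σ - q.2 by ring]

lemma g0_nonneg (hσ : 0 < σ) {q : ST} (hq : q.2 < 0) : 0 ≤ gau q.1 (σ - q.2) 0 :=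
  gau_nonneg _ (by linarith) _

omit [IsFiniteMeasure ν] in
lemma WW_nonneg (hσ : 0 < σ) {r : ℝ} (hr : 0 ≤ r) : 0 ≤ WW ν σ r :=
  setIntegral_nonneg (meas_lt 0) fun _ hq => mul_nonneg (g0_nonneg hσ hq) (wW_bd hσ hr hq).1

omit [IsFiniteMeasure ν] in
lemma TT_nonneg (hσ : 0 < σ) {r : ℝ} (hr : 0 ≤ r) : 0 ≤ TT ν σ r :=
  setIntegral_nonneg (meas_lt 0) fun _ hq => mul_nonneg (g0_nonneg hσ hq) (wT_bd hσ hr hq).1

omit [IsFiniteMeasure ν] in
lemma VV_nonneg (hσ : 0 < σ) {Q : Set ST} (hQ : MeasurableSet Q) {s : ℝ} (hs : ∀ q ∈ Q, q.2 < s)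
    (y : E) : 0 ≤ VV ν σ Q s y :=
  setIntegral_nonneg hQ fun q hq => (gau_bd hσ y (hs q hq)).1

lemma WW_le_TT (hσ : 0 < σ) {r : ℝ} (hr : 0 ≤ r) : WW ν σ r ≤ TT ν σ r :=
  setIntegral_mono_on (int_wW hσ hr) (int_wT hσ hr) (meas_lt 0) fun _ hq =>
    mul_le_mul_of_nonneg_left (wW_bd hσ hr hq).2 (g0_nonneg hσ hq)

lemma TT_le_pot (hσ : 0 < σ) {r : ℝ} (hr : 0 ≤ r) : TT ν σ r ≤ pot ν σ 0 := by
  rw [pot_zero]
  exact setIntegral_mono_on (int_wT hσ hr) (int_g0 hσ) (meas_lt 0) fun _ hq =>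
    mul_le_of_le_one_right (g0_nonneg hσ hq) (wT_bd hσ hr hq).2

lemma TT_mono (hσ : 0 < σ) {r r' : ℝ} (hr : 0 ≤ r) (h : r ≤ r') : TT ν σ r ≤ TT ν σ r' :=
  setIntegral_mono_on (int_wT hσ hr) (int_wT hσ (hr.trans h)) (meas_lt 0) fun _ hq =>
    mul_le_mul_of_nonneg_left (min_le_min le_rfl
      (mul_le_mul_of_nonneg_right h (isc_nonneg (by have : _ < (0 : ℝ) := hq; linarith))))
      (g0_nonneg hσ hq)

lemma TT_mul_le (hσ : 0 < σ) {r c : ℝ} (hr : 0 ≤ r) (hc : 1 ≤ c) :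
    TT ν σ (c * r) ≤ c * TT ν σ r := by
  rw [TT_eq, TT_eq, ← integral_const_mul]
  refine setIntegral_mono_on (int_wT hσ (by positivity)) ((int_wT hσ hr).const_mul c) (meas_lt 0)
    fun q hq => ?_
  rw [mul_left_comm]
  refine mul_le_mul_of_nonneg_left ?_ (g0_nonneg hσ hq)
  unfold wT
  rw [mul_min_of_nonneg _ _ (by linarith : (0 : ℝ) ≤ c)]
  exact min_le_min (by linarith) (by rw [mul_assoc])

lemma WW_mul_le (hσ : 0 < σ) {r c : ℝ} (hr : 0 ≤ r) (hc : 1 ≤ c) :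
    WW ν σ (c * r) ≤ c * WW ν σ r := by
  rw [WW_eq, WW_eq, ← integral_const_mul]
  refine setIntegral_mono_on (int_wW hσ (by positivity)) ((int_wW hσ hr).const_mul c) (meas_lt 0)
    fun q hq => ?_
  rw [mul_left_comm]
  refine mul_le_mul_of_nonneg_left ?_ (g0_nonneg hσ hq)
  have h0 := mul_nonneg hr (isc_nonneg (σ := σ) (q := q) (by have : q.2 < 0 := hq; linarith))
  unfold wW
  split_ifs with h1 h2 h2
  · rw [mul_assoc]
  · exfalso; rw [mul_assoc] at h1; nlinarith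
  · positivity
  · simp

lemma WW_le_diff (hσ : 0 < σ) {r : ℝ} (hr : 0 ≤ r) :
    WW ν σ r ≤ 2 * (TT ν σ r - TT ν σ (r / 2)) := by
  rw [WW_eq, TT_eq, TT_eq, ← integral_sub (int_wT hσ hr) (int_wT hσ (by positivity)),
    ← integral_const_mul]
  refine setIntegral_mono_on (int_wW hσ hr)
    (((int_wT hσ hr).sub (int_wT hσ (by positivity))).const_mul 2) (meas_lt 0) fun q hq => ?_
  rw [← mul_sub, mul_left_comm]
  refine mul_le_mul_of_nonneg_left ?_ (g0_nonneg hσ hq)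
  have h0 := mul_nonneg hr (isc_nonneg (σ := σ) (q := q) (by have : q.2 < 0 := hq; linarith))
  have e : r / 2 * isc σ q = r * isc σ q / 2 := by ring
  unfold wW wT
  rw [e]
  split_ifs with h1
  · rw [min_eq_right h1.le, min_eq_right (by linarith)]; linarith
  · rw [min_eq_left (not_lt.1 h1)]; linarith [min_le_left 1 (r * isc σ q / 2)]

/-- comparison of the potential at `(y, -R²)` and at the origin -/
theorem k1 (hσ : 0 < σ) {L R : ℝ} (hL : 0 ≤ L) (hR : 0 < R) {y : E} (hy : ‖y‖ ≤ L * R) :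
    pot ν σ (y, -R ^ 2) ≤ pot ν σ 0 - TT ν σ (R / LL L) / 2 +
      (C2 L * LL L + 1) * WW ν σ (R / LL L) + VV ν σ (Near σ (LL L) R) (-R ^ 2) y := by
  have hL' := LL_pos hL
  have hC := C2_pos hL
  have hr : 0 ≤ R / LL L := by positivity
  have hR2 : 0 < R ^ 2 := by positivity
  have hsub : ∀ q ∈ Near σ (LL L) R, q.2 < -R ^ 2 := fun q hq => hq.1
  have i1 := int_gauQ (ν := ν) hσ (meas_lt (-R ^ 2)) (fun _ h => h) y
  have i2 := int_gauQ (ν := ν) hσ (meas_near σ (LL L) R) hsub y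
  have e1 : pot ν σ (y, -R ^ 2) = ∫ q in {q : ST | q.2 < 0}, ({q : ST | q.2 < -R ^ 2}).indicator
      (fun q : ST => gau q.1 (-R ^ 2 - q.2 + σ) y) q ∂ν := by
    rw [setIntegral_indicator (meas_lt _), inter_eq_right.2]
    · rfl
    · intro q hq; have : q.2 < -R ^ 2 := hq; show q.2 < 0; linarith
  have e2 : VV ν σ (Near σ (LL L) R) (-R ^ 2) y = ∫ q in {q : ST | q.2 < 0},
      (Near σ (LL L) R).indicator (fun q : ST => gau q.1 (-R ^ 2 - q.2 + σ) y) q ∂ν := by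
    rw [setIntegral_indicator (meas_near _ _ _), inter_eq_right.2]
    · rfl
    · intro q hq; have : q.2 < -R ^ 2 := hq.1; show q.2 < 0; linarith
  have j1 := ((integrable_indicator_iff (meas_lt _)).2 i1).integrableOn (s := {q : ST | q.2 < 0})
  have j2 := ((integrable_indicator_iff (meas_near _ _ _)).2 i2).integrableOn
    (s := {q : ST | q.2 < 0})
  have k0 := int_g0 (ν := ν) hσ
  have kT := (int_wT (ν := ν) hσ hr).div_const 2
  have kW := (int_wW (ν := ν) hσ hr).const_mul (C2 L * LL L + 1)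
  have kS : Integrable (fun q : ST => gau q.1 (σ - q.2) 0 -
      gau q.1 (σ - q.2) 0 * wT σ (R / LL L) q / 2) (ν.restrict {q : ST | q.2 < 0}) := k0.sub kT
  have kA : Integrable (fun q : ST => gau q.1 (σ - q.2) 0 -
      gau q.1 (σ - q.2) 0 * wT σ (R / LL L) q / 2 +
      (C2 L * LL L + 1) * (gau q.1 (σ - q.2) 0 * wW σ (R / LL L) q))
      (ν.restrict {q : ST | q.2 < 0}) := kS.add kW
  rw [e1, e2, pot_zero, TT_eq, WW_eq, ← integral_div, ← integral_const_mul, ← integral_sub k0 kT,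
    ← integral_add kS kW, ← integral_add kA j2]
  refine setIntegral_mono_on j1 (kA.add j2) (meas_lt 0) fun q hq => ?_
  have g0 := g0_nonneg hσ hq
  obtain ⟨t0, t1⟩ := wT_bd hσ hr hq
  obtain ⟨w0, w1⟩ := wW_bd hσ hr hq
  have hW : 0 ≤ (C2 L * LL L + 1) * (gau q.1 (σ - q.2) 0 * wW σ (R / LL L) q) := by positivity
  have hT : gau q.1 (σ - q.2) 0 * wT σ (R / LL L) q ≤ gau q.1 (σ - q.2) 0 :=
    mul_le_of_le_one_right g0 t1
  have hN : 0 ≤ (Near σ (LL L) R).indicator (fun q : ST => gau q.1 (-R ^ 2 - q.2 + σ) y) q :=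
    indicator_nonneg (fun q hq => (gau_bd hσ y (hsub q hq)).1) q
  by_cases h1 : q.2 < -R ^ 2
  swap
  · rw [indicator_of_notMem (s := {q : ST | q.2 < -R ^ 2}) h1]; linarith
  rw [indicator_of_mem (s := {q : ST | q.2 < -R ^ 2}) h1]
  have hb : 0 < -R ^ 2 - q.2 + σ := by linarith
  have ea : -R ^ 2 - q.2 + σ + R ^ 2 = σ - q.2 := by ring
  by_cases h2 : LL L ≤ R * isc σ q
  · have := kp1 hL hR hb hy (z := q.1) (by rw [ea]; exact h2)
    rw [ea] at this; linarith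
  by_cases h3 : σ - q.2 < 2 * R ^ 2
  · rw [indicator_of_mem (show q ∈ Near σ (LL L) R from ⟨h1, h3, not_le.1 h2⟩)]; linarith
  have h4 := kp2 hL hR (b := -R ^ 2 - q.2 + σ) (by linarith) hy (z := q.1)
    (by rw [ea]; exact (not_le.1 h2).le)
  rw [ea] at h4
  have h5 : R / LL L * isc σ q < 1 := by
    rw [div_mul_eq_mul_div, div_lt_one hL']; exact not_le.1 h2
  have h6 : wW σ (R / LL L) q = R / LL L * isc σ q := if_pos h5
  have h7 : wT σ (R / LL L) q = R / LL L * isc σ q := min_eq_right h5.le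
  have h8 : R * ((√(σ - q.2) + ‖q.1‖) / (σ - q.2)) = LL L * wW σ (R / LL L) q := by
    rw [h6]; unfold isc; field_simp
  rw [h8] at h4
  rw [h7, ← h6]
  nlinarith [mul_nonneg g0 w0]

lemma near_sub (hσ : 0 < σ) {L R : ℝ} (hL : 0 ≤ L) (hR : 0 < R) :
    Near σ (LL L) R ⊆ Metric.closedBall 0 (2 * LL L * R) ×ˢ Ioo (-(2 * R ^ 2)) (-R ^ 2) := by
  intro q hq
  have h1 : q.2 < -R ^ 2 := hq.1
  have hR2 : 0 < R ^ 2 := by positivity
  refine ⟨?_, by linarith [hq.2.1], h1⟩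
  rw [mem_closedBall_zero_iff]
  exact (kp3 hL hR (by linarith) hq.2.1.le hq.2.2.le).2

/-- the near mass is controlled by `WW` -/
theorem near_le (hσ : 0 < σ) {L R : ℝ} (hL : 0 ≤ L) (hR : 0 < R) :
    ν.real (Near σ (LL L) R) ≤ C3 L * R ^ 2 * WW ν σ (R / LL L) := by
  have hL' := LL_pos hL
  have hC := C3_pos hL
  have hr : 0 ≤ R / LL L := by positivity
  have hR2 : 0 < R ^ 2 := by positivity
  have hs : Near σ (LL L) R ⊆ {q : ST | q.2 < 0} := fun q hq => by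
    have : q.2 < -R ^ 2 := hq.1; show q.2 < 0; linarith
  have i1 := (int_wW (ν := ν) hσ hr).const_mul (C3 L * R ^ 2)
  rw [WW_eq, ← integral_const_mul]
  calc ν.real (Near σ (LL L) R) = ∫ _ in Near σ (LL L) R, (1 : ℝ) ∂ν := by simp
    _ ≤ ∫ q in Near σ (LL L) R, C3 L * R ^ 2 * (gau q.1 (σ - q.2) 0 * wW σ (R / LL L) q) ∂ν := by
        refine setIntegral_mono_on (by simp) (IntegrableOn.mono_set i1 hs) (meas_near _ _ _)
          fun q hq => ?_
        have h1 : q.2 < -R ^ 2 := hq.1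
        have h5 : R / LL L * isc σ q < 1 := by
          rw [div_mul_eq_mul_div, div_lt_one hL']; exact hq.2.2
        rw [show wW σ (R / LL L) q = R / LL L * isc σ q from if_pos h5]
        exact (kp3 hL hR (by linarith) hq.2.1.le hq.2.2.le).1
    _ ≤ _ := by
        refine setIntegral_mono_set i1 ((ae_restrict_iff' (meas_lt 0)).2
          (Eventually.of_forall fun q hq => ?_)) (Eventually.of_forall hs)
        exact mul_nonneg (by positivity) (mul_nonneg (g0_nonneg hσ hq) (wW_bd hσ hr hq).1)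

/-- Chebyshev: the potential of the mass in `Q` is large on a small set only -/
theorem cheb : ∃ C : ℝ, 0 < C ∧ ∀ (ν : Measure ST) [IsFiniteMeasure ν] (σ s Λ K : ℝ) (Q : Set ST)
    (μ : Measure E), 0 < σ → MeasurableSet Q → (∀ q ∈ Q, q.2 < s) → 0 ≤ Λ → Rt μ Λ → 0 < K →
    μ {y | K ≤ VV ν σ Q s y} ≤ ENNReal.ofReal (C * Λ * ν.real Q / K) := by
  obtain ⟨C, hC, hG⟩ := gauS_holds
  refine ⟨C, hC, fun ν _ σ s Λ K Q μ hσ hQ hs hΛ hμ hK => ?_⟩
  have : SigmaFinite μ := by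
    refine Measure.sigmaFinite_of_countable (S := range fun n : ℕ => Metric.ball (0 : E) (n + 1))
      (countable_range _) ?_ ?_
    · rintro _ ⟨n, rfl⟩
      exact (hμ 0 _ (by positivity)).trans_lt ENNReal.ofReal_lt_top
    · rw [sUnion_range]; exact Metric.iUnion_ball_nat_succ 0
  have hm : Measurable fun p : E × ST => ENNReal.ofReal (gau p.2.1 (s - p.2.2 + σ) p.1) := by
    unfold gau; fun_prop
  set f : E → ENNReal := fun y => ∫⁻ q in Q, ENNReal.ofReal (gau q.1 (s - q.2 + σ) y) ∂ν with hf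
  have hfm : Measurable f := hm.lintegral_prod_right'
  have h1 : ∀ y, f y = ENNReal.ofReal (VV ν σ Q s y) := fun y =>
    (ofReal_integral_eq_lintegral_ofReal (int_gauQ hσ hQ hs y)
      ((ae_restrict_iff' hQ).2 (Eventually.of_forall fun q hq => (gau_bd hσ y (hs q hq)).1))).symm
  have h2 : ∫⁻ y, f y ∂μ ≤ ENNReal.ofReal (C * Λ * ν.real Q) := by
    rw [hf, lintegral_lintegral_swap hm.aemeasurable]
    calc ∫⁻ q in Q, ∫⁻ y, ENNReal.ofReal (gau q.1 (s - q.2 + σ) y) ∂μ ∂ν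
        ≤ ∫⁻ _ in Q, ENNReal.ofReal (C * Λ) ∂ν := by
          refine setLIntegral_mono' hQ fun q hq => ?_
          have hb : 0 < s - q.2 + σ := by linarith [hs q hq]
          obtain ⟨i, l, -⟩ := (hG μ Λ hΛ).1 hμ q.1 _ hb
          rw [← ofReal_integral_eq_lintegral_ofReal i
            (Eventually.of_forall fun x => gau_nonneg _ hb.le x)]
          exact ENNReal.ofReal_le_ofReal l
      _ = _ := by
          rw [setLIntegral_const, ENNReal.ofReal_mul (by positivity : 0 ≤ C * Λ), Measure.real,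
            ENNReal.ofReal_toReal (measure_ne_top _ _)]
  have h3 := meas_ge_le_lintegral_div (μ := μ) hfm.aemeasurable (ε := ENNReal.ofReal K)
    (by simpa using hK) ENNReal.ofReal_ne_top
  calc μ {y | K ≤ VV ν σ Q s y} ≤ μ {y | ENNReal.ofReal K ≤ f y} :=
        measure_mono fun y hy => by rw [Set.mem_ofPred_eq, h1]; exact ENNReal.ofReal_le_ofReal hy
    _ ≤ ENNReal.ofReal (C * Λ * ν.real Q) / ENNReal.ofReal K :=
        h3.trans (ENNReal.div_le_div_right h2 _)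
    _ = _ := (ENNReal.ofReal_div_of_pos hK).symm

end

end Crest.Agent.N250.K

end
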